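import Vale.Agent.P221EJ.Top
import Vale.Agent.P251CX.Top

/-!
# P221: the Hahn-Wilson conjecture fails at height two in the stable homotopy category

The stable homotopy category of orthogonal spectra, with its suspension spectrum functor, is a pair
`(T, S)` as below. For every such pair and every prime `p`, the homotopy of the Brown-Peterson
spectrum is `ℤ_(p)[v_1, v_2, …]` on the Hazewinkel generators (it vanishes in odd and in negative
degrees, each element is a fraction `φ x / m` with `m` prime to `p`, and `φ` is injective); if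
`p ≥ 5` the Morava `K`-theories `K(j)` exist, there is a standard form of `BP⟨2⟩_p`, and there is an
fp-spectrum `X` of fp-type at most `2` (the type of a finite spectrum is defined by the `K(j)`)
which lies in the thick subcategory generated by `B` for no standard form `B` of `BP⟨2⟩_p`.
-/

namespace Vale.Agent.Results.P221.AAAAAALiteral

open Vale.Agent.P251.St (SHCat Susp)
open Vale.Agent.P251CY hiding Pi IsStandardForm IsFpType
open Vale.Agent.P221EJ CategoryTheory

theorem result : (∃ (T : SHCat) (S : Susp T), Nonempty (P251CX.IsSH T S.toSuspData)) ∧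
    ∀ (T : SHCat) (S : Susp T) (p : ℕ), p.Prime →
      (∀ (P : RingSp T) (o : Oriented S P) (φ : GHom S p P), IsBrownPeterson p o φ →
        (∀ (k : ℤ) (f : Pi k P.obj), Odd k ∨ k < 0 → f = nul _ _) ∧
        (∀ (k : ℕ) (y : PiR S P k), ∃ (m : ℤ) (x : VPoly p k), ¬ (p : ℤ) ∣ m ∧
          zmul m y = φ.val x) ∧
        ∀ (k : ℕ) (x : VPoly p k), φ.val x = nul _ _ → x.pol = 0) ∧
      (5 ≤ p → (∀ j, ∃ K, IsK S p j K) ∧ (∃ B : T.C, IsStandardForm S p 2 B) ∧
        ∃ X : T.C, IsFpType S p 2 X ∧ ∀ B : T.C, IsStandardForm S p 2 B →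
          ¬ ObjectProperty.triangEnvelope (fun Y => Y = B) X) :=
  ⟨P251CX.exists_isSH, fun T S p hp => ⟨coef hp, P221EJ.not_hahnWilson T S p hp⟩⟩

end Vale.Agent.Results.P221.AAAAAALiteral
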